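import Vale.Agent.P354KN.Main

/-!
The nonlinear iteration with a source.
-/

open scoped ContDiff
open MeasureTheory Set Filter Topology

namespace Vale.Agent.P354KM

open Vale.Agent.P354H (X3 e pd pdl Sb pd_sm pdl_sm)
open Vale.Agent.P354K Vale.Agent.P354KN

theorem af_add (g0 h : X3 → ℝ) (g : Eq4 × Fin 4 → X3 → ℝ) (t : TT) (z : X3) :
    af (g0 + h) g t z = af g0 g t z + h z := by
  simp only [af_ap, Pi.add_apply]
  ring

set_option maxHeartbeats 800000 in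
theorem nl3 {P : Type} {l : Filter P} {lc : Eq4 → Jt → P → X3 → ℝ}
    {Q : Eq4 → P → X3 → (Jt → ℝ) → ℝ} {ψ : X3 → ℝ} {E : Fin 4 → X3 → ℝ} {C0 : ℝ} {C : ℕ → ℝ}
    {K : Set X3} {ε lam : P → ℝ} {j0 : P → Jt → X3 → ℝ} {jt : P → Eq4 × Fin 4 → Jt → X3 → ℝ}
    (m : ℕ) {f : Eq4 → P → X3 → ℝ} (hlc : ∀ k x, UD (lc k x)) (hQ : ∀ k, Pol 2 (Q k)) (hψ : Wt ψ)
    (hE : ∀ s, ContDiff ℝ ∞ (E s) ∧ ∀ z, z ∉ K → E s z = 0) (c0 : 0 ≤ C0) (hC : ∀ n, 0 ≤ C n)
    (hsol : Sol lc ψ E C0 C) (hK : IsCompact K) (hε : ∀ r, 0 < ε r) (hl : ∀ r, 1 ≤ lam r)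
    (hw : Tendsto (fun r => ε r * lam r ^ (3 * m + 30)) l (𝓝 0))
    (hP : Pack l lc Q ψ E K ε lam j0 jt) (hf : ∀ k, UC K (f k))
    (hf' : ∀ η > 0, ∀ᶠ r in l, ∀ k, Sb (m + 7) (f k r) (η * ε r ^ 2)) :
    ∃ C1, ∀ᶠ r in l, ∃ (t : Eq4 × Fin 4 → ℝ) (v : Jt → X3 → ℝ), ‖t‖ ≤ 1 ∧ Adm v ∧
      (∀ x, Fw (ww ψ) (v x)) ∧ (∀ x, Nw (ww ψ) m (v x) (C1 * ε r ^ 2 * lam r ^ (2 * m + 20))) ∧
      ∀ k z, Lin lc r (pk (j0 r) (jt r) t + v) k z +
        Q k r z (at' (pk (j0 r) (jt r) t + v) z) + f k r z = 0 := by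
  have hW := hψ.ww
  have hS := hψ.sw
  obtain ⟨A, A0, w1, w2⟩ : ∃ A, 0 ≤ A ∧ (∀ z, ww ψ z ≤ A * (ww ψ z * ww ψ z)) ∧
      ∀ z, sw ψ z ≤ A * (ww ψ z * ww ψ z) := by
    obtain ⟨A, a0, a⟩ := sw_le hψ
    obtain ⟨B, b0, b⟩ := poly_le_ww hψ 0
    refine ⟨A + B, by positivity, fun z => ?_, fun z => ?_⟩
    · have := mul_le_mul_of_nonneg_right (b z) (hW.pos z).le
      nlinarith [mul_nonneg a0 (mul_self_nonneg (ww ψ z))]
    · nlinarith [mul_nonneg b0 (mul_self_nonneg (ww ψ z)), a z]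
  have hF := PP.fam fun k => pp_of (hQ k)
  obtain ⟨F, eF⟩ : ∃ F, F = fun p : Eq4 × P => Q p.1 p.2 := ⟨_, rfl⟩
  rw [← eF] at hF
  have n7 : 7 ≤ m + 7 := by omega
  have dq := fun n (hn : 7 ≤ n) => hF.dq sobw hW A0 w1 hS w2 hn
  obtain ⟨Cq, q0, hq⟩ := dq _ n7 1
  obtain ⟨C2, q2, h2⟩ := hF.d2q sobw hW A0 w1 hS w2 n7
  obtain ⟨C3, q3, h3⟩ := hF.dqT sobw hW A0 w1 hS w2
  have pn := pack_nw hlc hψ hE hK hε hl hP
  obtain ⟨a', a0', ha'⟩ := nw_supp hK hS.cont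
  have fn := fun n k r c => ha' n (f k r) c ((hf k).1.1 r) ((hf k).2 r)
  obtain ⟨c, c0', hc⟩ : ∃ c, 0 ≤ c ∧ ∀ᶠ r in l, (∀ x,
      Nw (ww ψ) (m + 7) (j0 r x) (c * (ε r * lam r ^ (m + 7 + 1))) ∧
      ∀ s, Nw (ww ψ) (m + 7) (jt r s x) (c * (ε r * lam r ^ (m + 7 + 1)))) ∧ ∀ k,
      Nw (sw ψ) (m + 7) (Lin lc r (j0 r) k + f k r) (c * (ε r * lam r ^ (m + 7 + 1)) ^ 2) ∧
      ∀ s, Nw (sw ψ) (m + 7) (gl lc E r (ε r ^ 2) (jt r) k s)
        (c * (ε r * lam r ^ (m + 7 + 1)) ^ 2) := by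
    obtain ⟨c, c0', hc⟩ := pn (m + 7)
    refine ⟨c + a', by positivity, (hf' 1 one_pos).mono fun r hr => ?_⟩
    have e0 := (hε r).le
    have l0 := zero_le_one.trans (hl r)
    have k1 : c * (ε r * lam r ^ (m + 7 + 1)) ≤ (c + a') * (ε r * lam r ^ (m + 7 + 1)) := by
      gcongr
      linarith
    have k2 : c * (ε r * lam r ^ (m + 7 + 1)) ^ 2 ≤ (c + a') * (ε r * lam r ^ (m + 7 + 1)) ^ 2 := by
      gcongr
      linarith
    refine ⟨fun x => ⟨nw_mono ((hc r).1 x).1 le_rfl k1, fun s => nw_mono (((hc r).1 x).2 s) le_rfl k1⟩,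
      fun k => ⟨nw_mono (nw_add ((hc r).2 k).1 (fn _ k r _ (hr k))) le_rfl ?_,
        fun s => nw_mono (((hc r).2 k).2 s) le_rfl k2⟩⟩
    rw [add_mul, one_mul]
    gcongr
    exact le_mul_of_one_le_right e0 (one_le_pow₀ (hl r))
  obtain ⟨Cd, hd⟩ := hP.dual
  obtain ⟨a, ha⟩ : ∃ a, a = 17 * c + 1 := ⟨_, rfl⟩
  have a0 : 0 ≤ a := by rw [ha]; positivity
  obtain ⟨Cs, hCs⟩ : ∃ Cs, Cs = 4 * (a + Cq * a ^ 2) := ⟨_, rfl⟩
  have s0 : 0 ≤ Cs := by rw [hCs]; positivity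
  obtain ⟨μ, μ0, m1⟩ : ∃ μ, 0 < μ ∧ (1 + 4 * |Cd| * C0) * C0 * μ ≤ 1 / 4 :=
    ⟨1 / (4 * ((1 + 4 * |Cd| * C0) * C0 + 1)), by positivity, by
      rw [mul_one_div, div_le_div_iff₀ (by positivity) (by positivity)]; linarith⟩
  have m2 : 2 * (C0 * μ) ≤ 1 := by
    have : 0 ≤ 4 * |Cd| * C0 * C0 * μ := by positivity
    nlinarith
  have cn := hC (m + 7)
  have ev1 : ∀ X : ℝ, 0 ≤ X → ∀ᶠ r in l, X * (ε r * lam r ^ (m + 7 + 1)) ≤ 1 ∧
      X * (ε r * lam r ^ (m + 7 + 1)) ^ 3 ≤ ε r ^ 2 := fun X hX => by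
    filter_upwards [(hw.const_mul X).eventually (ge_mem_nhds (show X * 0 < 1 by simp))] with r hr
    have e0 := (hε r).le
    refine ⟨le_trans (mul_le_mul_of_nonneg_left (mul_le_mul_of_nonneg_left
      (pow_le_pow_right₀ (hl r) (by omega)) e0) hX) hr, ?_⟩
    calc _ = X * (ε r * lam r ^ (3 * m + 24)) * ε r ^ 2 := by ring
      _ ≤ X * (ε r * lam r ^ (3 * m + 30)) * ε r ^ 2 := mul_le_mul_of_nonneg_right
        (mul_le_mul_of_nonneg_left (mul_le_mul_of_nonneg_left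
          (pow_le_pow_right₀ (hl r) (by omega)) e0) hX) (sq_nonneg _)
      _ ≤ _ := mul_le_of_le_one_left (sq_nonneg _) hr
  refine ⟨2 * C (m + 7) * Cs, ?_⟩
  filter_upwards [hc, hd (μ / 2) (by positivity), hf' (μ / (8 * (a' + 1))) (by positivity),
    hd μ μ0, ev1 (2 * C (m + 7) * Cs) (by positivity), ev1 a a0,
    ev1 (4 * Cq * a * C (m + 7)) (by positivity), ev1 (2 * C0 * C3 * a) (by positivity),
    ev1 (16 * a * (Cq + 2 * C2) * C (m + 7) * Cs / μ) (by positivity)] with r ⟨hc1, hc2⟩ d2 d3 d1 x1 x2 x3 x4 x5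
  have e0 := hε r
  have l0 : 0 < lam r := one_pos.trans_le (hl r)
  obtain ⟨e, he⟩ : ∃ e, e = ε r * lam r ^ (m + 7 + 1) := ⟨_, rfl⟩
  have ep : 0 < e := by rw [he]; positivity
  rw [← he] at hc1 hc2 x1 x2 x3 x4 x5
  replace x1 := x1.1
  replace x2 := x2.1
  replace x3 := x3.1
  replace x4 := x4.1
  replace x5 := x5.2
  rw [div_mul_eq_mul_div, div_le_iff₀ μ0] at x5
  obtain ⟨σ, hσ⟩ : ∃ σ, σ = C (m + 7) * (Cs * e ^ 2) := ⟨_, rfl⟩
  have σ0 : 0 ≤ σ := by rw [hσ]; positivity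
  have σ1 : 2 * σ ≤ e := by rw [hσ]; nlinarith
  have ae : 0 ≤ a * e := by positivity
  have ce : 0 ≤ c * e := by positivity
  have p1 : ∀ t : TT, ‖t‖ ≤ 2 * (C0 * μ) → ∀ x,
      Nw (ww ψ) (m + 7) (pk (j0 r) (jt r) t x) (17 * (c * e)) := fun t ht x => by
    rw [pk_af]; exact af_le (hc1 x).1 (hc1 x).2 (ht.trans m2)
  have p2 : ∀ (t : TT) (v : JJ), ‖t‖ ≤ 2 * (C0 * μ) → (∀ y, Nw (ww ψ) (m + 7) (v y) (2 * σ)) → ∀ x,
      Nw (ww ψ) (m + 7) ((pk (j0 r) (jt r) t + v) x) (a * e) := fun t v ht hv x =>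
    nw_mono (nw_add (p1 t ht x) (hv x)) le_rfl (by rw [ha]; linarith)
  have p3 : ∀ (t t' : TT) (v v' : JJ) x, (pk (j0 r) (jt r) t' + v') x - (pk (j0 r) (jt r) t + v) x =
      af (j0 r x) (fun s => jt r s x) t' - af (j0 r x) (fun s => jt r s x) t + (v' x - v x) :=
    fun t t' v v' x => by simp only [Pi.add_apply, pk_af]; abel
  have z0 : ∀ k u, ev F (k, r) u = ev F (k, r) u - ev F (k, r) 0 := fun k u => funext fun z =>
    ((congrArg _ (hF.at0 one_le_two (k, r) z)).trans (sub_zero _)).symm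
  have t0 : ‖(0 : TT)‖ ≤ 2 * (C0 * μ) := by rw [norm_zero]; positivity
  have i1 : ∀ k, Nw (sw ψ) (m + 7) (af (Lin lc r (j0 r) k + f k r) (gl lc E r (ε r ^ 2) (jt r) k) 0 +
      ev F (k, r) (pk (j0 r) (jt r) 0 + 0)) (Cs * e ^ 2) := by
    intro k
    have k1 := p2 0 0 t0 fun _ => nw_zero (by linarith)
    rw [z0]
    refine nw_mono (nw_add (af_le (hc2 k).1 (hc2 k).2 (by simp)) (hq _ _ _ _ (a * e) ae x2
      (fun _ => nw_zero ae) k1 fun x => by simpa using k1 x)) le_rfl ?_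
    have : 0 ≤ Cq * a ^ 2 * e ^ 2 := by positivity
    have : 0 ≤ c * e ^ 2 := by positivity
    rw [hCs]
    nlinarith [sq_nonneg e]
  refine Exists.elim (iter hψ hsol c0 hC r
    (fun t v k => af (Lin lc r (j0 r) k + f k r) (gl lc E r (ε r ^ 2) (jt r) k) t +
      ev F (k, r) (pk (j0 r) (jt r) t + v)) (n0 := m + 7) (ν := ε r ^ 2) (s := Cs * e ^ 2)
    (M := ε r ^ 2 * μ) (τ := C0 * μ) (σ := σ) (β := C3 * (a * e)) (by positivity) (by positivity)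
    (le_of_eq (by ring)) hσ.ge (by linarith) i1 ?_ ?_ ?_ ?_ ?_) fun t ⟨v, r1, r2, r3, r4, r5⟩ => ?_
  rotate_right
  · refine ⟨t, v, r1.trans m2, r2, r3, fun x => nw_mono (r4 x) (by omega) ?_, fun k z => ?_⟩
    · calc _ = 2 * C (m + 7) * Cs * ε r ^ 2 * lam r ^ (2 * m + 16) := by rw [hσ, he]; ring
        _ ≤ _ := by
          gcongr
          · exact hl r
          · omega
    · have := r5 k z
      simp only [Pi.add_apply, af_add, af_gl, eF] at this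
      have e1 : Lin lc r (pk (j0 r) (jt r) t + v) k z =
          Lin lc r (pk (j0 r) (jt r) t) k z + Lin lc r v k z := by
        simp only [Lin, Pi.add_apply, mul_add, Finset.sum_add_distrib]
      rw [e1, ← this]
      simp only [ev]
      change _ + Q k r z (fun x => (pk (j0 r) (jt r) t + v) x z) + _ = _
      ring
  · have : pk (j0 r) (jt r) 0 = j0 r := by funext x z; simp [pk]
    refine dual_mono (dual_add hψ ((congrArg (fun f => Dual ψ f _) ?_).mp d2.1) i1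
      fun k => fn _ k r _ (d3 k)) ?_
    · funext k z
      simp only [Pi.add_apply, Pi.sub_apply, af_add, af_gl, Gd, this, add_zero, eF, ev]
      change _ + Q k r z (fun x => j0 r x z) - _ = _
      ring
    · have : a' * (μ / (8 * (a' + 1))) ≤ μ / 8 := by
        rw [mul_div_assoc', div_le_div_iff₀ (by positivity) (by positivity)]
        nlinarith
      nlinarith [mul_le_mul_of_nonneg_right this (sq_nonneg (ε r))]
  · intro k n
    obtain ⟨b, b0, hb⟩ := pn (max n 7)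
    obtain ⟨hb1, hb2⟩ := hb r
    obtain ⟨D, -, hD⟩ := dq _ (le_max_right n 7) (17 * (b * (ε r * lam r ^ (max n 7 + 1))))
    have k1 : ∀ x, Nw (ww ψ) (max n 7) ((pk (j0 r) (jt r) 0 + 0) x) _ := fun x => by
      rw [add_zero, pk_af]; exact af_le (hb1 x).1 (hb1 x).2 (by simp)
    obtain ⟨b', b0', hb'⟩ := (hf k).1.sb (max n 7)
    have k2 := nw_add (hb2 k).1 (fn _ k r _ (hb' r))
    rw [z0]
    exact ⟨_, nw_mono (nw_add (af_le k2 (fun s => nw_mono ((hb2 k).2 s) le_rfl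
      (le_add_of_nonneg_right (by positivity))) (by simp)) (hD _ _ _ _ _ (by positivity)
      le_rfl (fun _ => nw_zero (by positivity)) k1 fun x => by simpa using k1 x))
      (le_max_left _ _) le_rfl⟩
  · intro t t' v v' x x0 ht ht' hv hv' dt dv
    have τx : C0 * μ * x ≤ x := mul_le_of_le_one_left x0 (by linarith [mul_nonneg c0 μ0.le])
    have k1 : ∀ k, Nw (sw ψ) (m + 7) (af (Lin lc r (j0 r) k + f k r) (gl lc E r (ε r ^ 2) (jt r) k) t' +
        ev F (k, r) (pk (j0 r) (jt r) t' + v') - (af (Lin lc r (j0 r) k + f k r)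
        (gl lc E r (ε r ^ 2) (jt r) k) t + ev F (k, r) (pk (j0 r) (jt r) t + v)))
        (Cs * e ^ 2 * (x / 2)) := fun k => by
      rw [add_sub_add_comm]
      refine nw_mono (nw_add (af_diff (hc2 k).2 (dt.trans τx)) (hq _ _ _ _ _ ae x2 (p2 t v ht hv)
        (p2 t' v' ht' hv') fun y => by
          rw [p3]; exact nw_add (af_diff (hc1 y).2 (dt.trans τx)) (dv y))) le_rfl ?_
      have y0 : 0 ≤ e ^ 2 * x := by positivity
      have y1 : 16 * c ≤ a := by linarith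
      have y2 := mul_le_mul_of_nonneg_right y1 y0
      have y3 := mul_le_mul_of_nonneg_left y2 (mul_nonneg q0 a0)
      have y4 := mul_le_mul_of_nonneg_right x3 (mul_nonneg s0 y0)
      have y5 : Cs * (e ^ 2 * x) = 4 * (a + Cq * a ^ 2) * (e ^ 2 * x) := by rw [hCs]
      rw [hσ]
      linarith
    refine ⟨k1, ?_⟩
    have o1 : 17 * (c * e) ≤ 1 := by rw [ha] at x2; linarith
    have k2 := fun k => nw_add (hq (k, r) _ _ _ (σ * x) ae x2 (p2 t' v ht' hv) (p2 t' v' ht' hv')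
      fun y => by simpa using dv y) (h2 (k, r) _ _ v _ (16 * (c * e) * x)
        (fun y => nw_mono (p1 t ht y) le_rfl o1) (fun y => nw_mono (p1 t' ht' y) le_rfl o1)
        (fun y => nw_mono (p2 t v ht hv y) le_rfl x2) (fun y => nw_mono (p2 t' v ht' hv y) le_rfl x2)
        hv fun y => by rw [pk_af, pk_af]; exact af_diff (hc1 y).2 (dt.trans τx))
    refine dual_mono (dual_add hψ ((congrArg (fun f => Dual ψ f _) ?_).mp
      (d1.2 t' t (ht'.trans m2) (ht.trans m2))) k1 k2) ?_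
    · funext k z
      simp only [Pi.add_apply, Pi.sub_apply, af_add, af_gl, Gd, eF, ev]
      change _ + Q k r z (fun x => pk (j0 r) (jt r) t' x z) - _ -
        (_ + Q k r z (fun x => pk (j0 r) (jt r) t x z) - _) = _
      ring
    · have y1 : ε r ^ 2 * (μ + Cd * (‖t'‖ + ‖t‖)) * ‖t' - t‖ ≤
          ε r ^ 2 * (μ + |Cd| * (2 * (C0 * μ) + 2 * (C0 * μ))) * (C0 * μ * x) := by
        gcongr
        exact le_abs_self _
      have y2 := mul_le_mul_of_nonneg_right m1 (by positivity : 0 ≤ ε r ^ 2 * μ * x)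
      have y3 := mul_le_mul_of_nonneg_right x5 x0
      have y4 : C2 * (2 * σ) * (16 * c * e * x) ≤ C2 * (2 * σ) * (a * e * x) := by
        gcongr
        linarith
      rw [hσ] at y4 ⊢
      linarith
  · intro n hn B B0
    obtain ⟨b, b0, hb⟩ := pn (n + 1)
    obtain ⟨hb1, hb2⟩ := hb r
    obtain ⟨b1, e1⟩ : ∃ b1, b1 = b * (ε r * lam r ^ (n + 1 + 1)) := ⟨_, rfl⟩
    obtain ⟨b2, e2⟩ : ∃ b2, b2 = b * (ε r * lam r ^ (n + 1 + 1)) ^ 2 := ⟨_, rfl⟩
    have u1 : 0 ≤ b1 := by rw [e1]; positivity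
    have u2 : 0 ≤ b2 := by rw [e2]; positivity
    rw [← e1] at hb1
    rw [← e2] at hb2
    obtain ⟨D, D0, hD⟩ := dq n (by omega) (17 * b1 + B)
    obtain ⟨D', D0', hD'⟩ := h3 n (by omega) (17 * b1 + B) (by positivity)
    refine ⟨16 * b2 + D * (17 * b1 + B) * (16 * b1 + 1) + C3 * (16 * b1) +
      D' * (16 * b1 + 1) * (1 + 17 * b1), by positivity,
      fun t t' v v' δ ht ht' hv hv' hB hB' dt dv => ?_⟩
    have δ0 : 0 ≤ δ := (norm_nonneg _).trans dt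
    have g1 : ∀ t : TT, ‖t‖ ≤ 2 * (C0 * μ) → ∀ x,
        Nw (ww ψ) (n + 1) (pk (j0 r) (jt r) t x) (17 * b1) := fun t ht x => by
      rw [pk_af]; exact af_le (hb1 x).1 (hb1 x).2 (ht.trans m2)
    have g2 : ∀ (t : TT) (v : JJ), ‖t‖ ≤ 2 * (C0 * μ) → (∀ y, Nw (ww ψ) n (v y) B) → ∀ x,
        Nw (ww ψ) n ((pk (j0 r) (jt r) t + v) x) (17 * b1 + B) := fun t v ht hv x =>
      nw_add (nw_mono (g1 t ht x) (Nat.le_succ n) le_rfl) (hv x)
    have g3 := fun x => af_diff (g0 := j0 r x) (hb1 x).2 dt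
    have g4 : ∀ x, Nw (ww ψ) n ((pk (j0 r) (jt r) t' + v') x - (pk (j0 r) (jt r) t + v) x)
        ((16 * b1 + 1) * δ) := fun x => by
      rw [p3, add_mul, one_mul]; exact nw_add (nw_mono (g3 x) (Nat.le_succ n) le_rfl) (dv x)
    have g5 := fun k => af_diff (g0 := Lin lc r (j0 r) k + f k r) (hb2 k).2 dt
    have g6 := fun k => hD (k, r) _ _ _ _ (by positivity) le_rfl (g2 t v ht hB) (g2 t' v' ht' hB') g4
    have y1 : 0 ≤ C3 * (16 * b1) * δ := by positivity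
    have y2 : 0 ≤ D' * (16 * b1 + 1) * (1 + 17 * b1) * δ := by positivity
    have y3 : 0 ≤ D * (17 * b1 + B) * (16 * b1 + 1) * δ := by positivity
    refine ⟨fun k => ?_, fun T T' T0 h1 h1' h4 k => ?_⟩
    · rw [add_sub_add_comm]
      exact nw_mono (nw_add (nw_mono (g5 k) (Nat.le_succ n) le_rfl) (g6 k)) le_rfl (by linarith)
    · rw [add_sub_add_comm]
      refine tw_mono (tw_add (g5 k).1 (g6 k).1 (nw_tw (g5 k)) (hD' (k, r) _ _ (a * e) _
        (17 * b1 + T) (16 * b1 * δ + T') ae x2 (by positivity) (by positivity)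
        (fun y => nw_mono (p2 t v ht hv y) n7 le_rfl) (fun y => nw_mono (p2 t' v' ht' hv' y) n7 le_rfl)
        (g2 t v ht hB) (g2 t' v' ht' hB') g4
        (fun y => tw_add (g1 t ht y).1 (hB y).1 (nw_tw (g1 t ht y)) (h1 y))
        (fun y => tw_add (g1 t' ht' y).1 (hB' y).1 (nw_tw (g1 t' ht' y)) (h1' y)) fun y => by
          rw [p3]; exact tw_add (g3 y).1 (dv y).1 (nw_tw (g3 y)) (h4 y))) ?_
      have y4 := mul_le_mul_of_nonneg_left x2 y1
      have y5 : 0 ≤ (16 * b2 + D * (17 * b1 + B) * (16 * b1 + 1) + C3 * (16 * b1) +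
        D' * (16 * b1 + 1) * (17 * b1)) * δ * T := by positivity
      linarith
  · intro t v t' v' ht hv k z
    have k1 : ∀ (g0 : X3 → ℝ) g, Tendsto (fun i => af g0 g (t i) z) atTop (𝓝 (af g0 g t' z)) :=
      fun g0 g => by
        simp only [af_ap]
        exact (tendsto_finsetSum _ fun s _ => (tendsto_pi_nhds.1 ht s).mul_const _).const_add _
    refine (k1 _ _).add (((hF.cont (k, r) z).tendsto _).comp (tendsto_pi_nhds.2 fun x => ?_))
    simp only [Pi.add_apply, pk_af]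
    exact (k1 _ _).add (hv x z)

end Vale.Agent.P354KM
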