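import Vale.Agent.P354K.Fin
import Vale.Agent.P354K.Glue
import Vale.Agent.P354KM.NL3

/-!
Removal of a small source in the coordinates z.
-/

open scoped ContDiff
open MeasureTheory Set Filter Topology

namespace Vale.Agent.P354KM

open Vale.Agent.P354H (X3 e pd pdl Sb pd_sm pdl_sm)
open Vale.Agent.P354K Vale.Agent.P354KZ

theorem core3 {B : (Jt → ℝ) → ℝ} (hB : Pl B) {P : Type} {l : Filter P} {jb : P → Jt → X3 → ℝ}
    {K0 K : Set X3} {js jT : Jt → X3 → ℝ} {χ : X3 → ℝ} {S : Eq4 → P → X3 → ℝ} {lam : P → ℝ} (m : ℕ)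
    (hb : Base jb) (hK0 : IsCompact K0) (hK : IsCompact K) (hw : Wit D K js jT χ)
    (hcv : ∀ η > 0, ∀ᶠ r in l, ∀ x, ∀ z ∈ K, |jb r x z - js x z| ≤ η) (hS : ∀ k, UC K0 (S k))
    (hl : ∀ r, 1 ≤ lam r) (hlam : Tendsto lam l atTop)
    (hS' : ∀ (n : ℕ) (i : ℤ), ∀ η > 0, ∀ᶠ r in l, ∀ k, Sb n (S k r) (η * (lam r ^ i) ^ 2)) :
    ∃ C, ∀ᶠ r in l, ∃ j : Jt → X3 → ℝ, Adm j ∧
      (∀ k z, PC B k (at' (jb r) z + at' j z) = PC B k (at' (jb r) z) - S k r z) ∧
      (∀ x α (n : ℕ), ∃ c, ∀ z, |Dl α (j x) z| * (1 + ‖z‖ ^ 2) ^ n ≤ c) ∧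
      ∀ α : List (Fin 3), α.length ≤ m → ∀ z x, |Dl α (j x) z| ≤ C / lam r := by
  obtain ⟨lc, c, R, s1, s2, s3, s4, s5⟩ := P354KD.dec B hB P jb hb
  have hc : Cf jb c := ⟨hb, s2, s4⟩
  let RR : Eq4 → P → X3 → (Jt → ℝ) → ℝ := fun k => Option.casesOn k R fun _ _ _ _ => 0
  have hR : ∀ k, Pol 3 (RR k) := fun k => by
    cases k with
    | none => exact s3
    | some a => exact .zero 3
  obtain ⟨z0, hz0⟩ := hw.ne
  obtain ⟨ρ, ρ0, hρ⟩ := Metric.nhds_basis_closedBall.mem_iff.1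
    (hw.sm.continuous.continuousAt.eventually_ne hz0)
  obtain ⟨ψ, E, C0, C, hψ, hE, c0, hC, hsol⟩ := sol P jb lc hb s1 z0 ρ ρ0
  obtain ⟨M, hM⟩ : ∃ M, M = 3 * (m + 3) + 31 := ⟨_, rfl⟩
  obtain ⟨X0, w, X, q1, q2, q3, -, -⟩ := xpk P l jb lc c RR K0 K _ js jT χ 0 lam ψ E M hc s1 hR hK0
    hK hw hcv (fun _ _ => uc_zero) (fun _ _ _ _ => rfl) (fun _ _ _ => rfl) hl hlam hψ Metric.isClosed_closedBall (fun z hz => hρ hz) hE (by omega)
  have l0 : ∀ r, 0 < lam r := fun r => one_pos.trans_le (hl r)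
  have zp : ∀ r (i : ℤ), 0 ≤ lam r ^ i := fun r i => (zpow_pos (l0 r) i).le
  obtain ⟨C1, h1⟩ := nl3 (m + 3) s1.ud (pol_QQ hc hR) hψ
    (fun s => ⟨(hE s).1, fun z hz => (hE s).2 z fun h => hρ h
      (hw.supp z fun h => hz (Or.inr h)).1⟩) c0 hC hsol (hK0.union hK)
    (fun r => zpow_pos (l0 r) _) hl (hlam.inv_tendsto_atTop.congr fun r => by
      rw [← zpow_natCast, ← zpow_add₀ (l0 r).ne', Pi.inv_apply, ← zpow_neg_one]
      congr 1
      omega) q1 (fun k => (hS k).mono subset_union_left) (hS' _ _)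
  obtain ⟨A1, a1, b1⟩ := unif (fun α r => zp r (α.length + 1)) (fun x α => (q2 x α).2.2.2) m
  obtain ⟨A2, a2, b2⟩ := unif (ι := (Eq4 × Fin 4) × Jt) (fun α r => zp r (α.length + 1))
    (fun p α => (q3 p.1 p.2 α).2.2.2) m
  have dw := fun α N => dec_w α N _ hψ.ww (poly_le_ww hψ)
  obtain ⟨A5, b5⟩ := words_bound (F := fun α C => 0 ≤ C ∧ ∀ g c, Nw (ww ψ) (α.length + 3) g c →
      ∀ z, |Dl α g z| ≤ C * c) (fun α a b hab h => ⟨h.1.trans hab, fun g c H z => (h.2 g c H z).trans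
      (mul_le_mul_of_nonneg_right hab H.nonneg)⟩) (fun α => by simpa using dw α 0) m
  have a5 := (b5 [] (by simp)).1
  refine ⟨A1 + 16 * A2 + A5 * |C1|, ?_⟩
  filter_upwards [h1] with r ⟨t, v, r1, r2, r3, r4, r5⟩
  have e0 := l0 r
  have sm0 : ∀ x, Sm (X0 r x) := fun x => (q2 x).bz.1 r
  have sm1 : ∀ s x, Sm (X s r x) := fun s x => (q3 s x).bz.1 r
  obtain ⟨p, hp⟩ : ∃ p, p = pk (scl (lam r ^ (-M : ℤ)) (X0 r))
    (fun s => scl (lam r ^ (-M : ℤ)) (X s r)) t := ⟨_, rfl⟩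
  rw [← hp] at r5
  have pa : Adm p := by
    have : ∀ s : Finset (Eq4 × Fin 4), Adm fun x z => ∑ i ∈ s,
        scl (t i) (scl (lam r ^ (-M : ℤ)) (X i r)) x z := fun s => by
      induction s using Finset.induction_on with
      | empty =>
        refine (congrArg Adm ?_).mp (adm_scl (q1.adm0 r) 0)
        funext x z
        simp [scl]
      | insert i s hi ih =>
        simp only [Finset.sum_insert hi]
        exact P354KW.adm_add (adm_scl (q1.admt r i) _) ih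
    rw [hp]
    exact P354KW.adm_add (q1.adm0 r) (this _)
  have pd1 : ∀ α x z, Dl α (p x) z = lam r ^ (-M : ℤ) * Dl α (X0 r x) z +
      ∑ s, t s * (lam r ^ (-M : ℤ) * Dl α (X s r x) z) := fun α x z => by
    have k : ∀ s, Sm fun z => lam r ^ (-M : ℤ) * X s r x z := fun s => contDiff_const.mul (sm1 s x)
    have : p x = fun z => lam r ^ (-M : ℤ) * X0 r x z +
        ∑ s, t s * (lam r ^ (-M : ℤ) * X s r x z) := by rw [hp]; rfl
    rw [this, Dl_add α (contDiff_const.mul (sm0 x)) (ContDiff.sum fun s _ => contDiff_const.mul (k s)),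
      Dl_cmul α _ (sm0 x), Dl_sum α _ fun s => contDiff_const.mul (k s)]
    simp only [fun s => Dl_cmul α (t s) (k s), fun s => Dl_cmul α (lam r ^ (-M : ℤ)) (sm1 s x)]
  have da : ∀ α x z, Dl α ((p + v) x) z = Dl α (p x) z + Dl α (v x) z := fun α x z =>
    congrFun (Dl_add α (pa.sm x) (r2.sm x)) z
  refine ⟨p + v, P354KW.adm_add pa r2, fun k z => ?_, fun x α n => ?_, fun α hα z x => ?_⟩
  · have k1 := r5 k z
    cases k with
    | none =>
      simp only [PC]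
      rw [s5, ← sub_eq_zero]
      refine Eq.trans ?_ k1
      simp only [Lin, QQ, Q2, RR, P354KW.Gm, at']
      ring
    | some a =>
      simp only [PC]
      rw [PM_add, ← s1.mom, ← sub_eq_zero]
      refine Eq.trans ?_ k1
      simp only [Lin, QQ, Q2, RR, at']
      ring
  · obtain ⟨D1, -, d1⟩ := dw α n
    obtain ⟨D2, d2⟩ := r3 x (α.length + 3)
    obtain ⟨D3, d3⟩ := (hK0.union hK).exists_bound_of_continuousOn
      (f := fun z => |Dl α (p x) z| * (1 + ‖z‖ ^ 2) ^ n)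
      ((Dl_sm α (pa.sm x)).continuous.abs.mul (by fun_prop)).continuousOn
    refine ⟨|D3| + D1 * D2, fun z => ?_⟩
    have k1 : |Dl α (p x) z| * (1 + ‖z‖ ^ 2) ^ n ≤ |D3| := by
      by_cases hz : z ∈ K0 ∪ K
      · exact (le_abs_self _).trans ((d3 z hz).trans (le_abs_self _))
      · rw [Dl_supp α (hK0.union hK).isClosed (fun y hy => by
          rw [hp]
          simp only [pk, (q1.supp r x y hy).1, (q1.supp r x y hy).2, mul_zero,
            Finset.sum_const_zero, add_zero]) z hz]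
        simp
    rw [da]
    refine (mul_le_mul_of_nonneg_right (abs_add_le _ _) (by positivity)).trans ?_
    rw [add_mul]
    exact add_le_add k1 (d1 _ _ d2 z)
  have pw : ∀ {a : ℝ} {i j : ℤ}, 0 ≤ a → i ≤ j → a * lam r ^ i ≤ a * lam r ^ j := fun h h' =>
    mul_le_mul_of_nonneg_left (zpow_le_zpow_right₀ (hl r) h') h
  have v1 : ∀ x (i : ℤ), -(M + 3 : ℤ) ≤ i → |Dl α (v x) z| ≤ A5 * |C1| * lam r ^ i := fun x i hi => by
    refine ((b5 α hα).2 _ _ ((r4 x).low (by omega)) z).trans ?_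
    rw [← zpow_natCast, ← zpow_natCast, ← zpow_mul, mul_assoc, ← zpow_add₀ e0.ne', mul_assoc]
    exact mul_le_mul_of_nonneg_left ((mul_le_mul_of_nonneg_right (le_abs_self _) (zp r _)).trans
      (pw (abs_nonneg _) (by push_cast; omega))) a5
  have k : ∀ {u A : ℝ}, 0 ≤ A → |u| ≤ A * lam r ^ (α.length + 1 : ℤ) →
      |lam r ^ (-M : ℤ) * u| ≤ A * lam r ^ (-1 : ℤ) := fun h h' => by
    rw [abs_mul, abs_of_nonneg (zp r _)]
    refine (mul_le_mul_of_nonneg_left h' (zp r _)).trans ?_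
    rw [mul_left_comm, ← zpow_add₀ e0.ne']
    exact pw h (by omega)
  have k1 := k a1 (b1 α hα x r z)
  have k2 : |∑ s, t s * (lam r ^ (-M : ℤ) * Dl α (X s r x) z)| ≤ 16 * (A2 * lam r ^ (-1 : ℤ)) :=
    (Finset.abs_sum_le_sum_abs _ _).trans ((Finset.sum_le_sum
      (g := fun _ => A2 * lam r ^ (-1 : ℤ)) fun s _ => by
      rw [abs_mul]
      exact (mul_le_of_le_one_left (abs_nonneg _) ((norm_le_pi_norm t s).trans r1)).trans
        (k a2 (b2 α hα (s, x) r z))).trans (by simp))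
  have k3 := v1 x (-1) (by omega)
  rw [da, pd1, div_eq_mul_inv, ← zpow_neg_one]
  refine (abs_add_three _ _ _).trans ?_
  linarith

theorem glz : GLZ := by
  intro B hB P l jb K0 K js jT χ S hb hK0 hK hw hcv hS hS' m η hη
  obtain ⟨C, hC⟩ := core3 hB (P := ℝ × P) (l := atTop.curry l) (jb := fun p => jb p.2)
    (S := fun k p => S k p.2) (lam := fun p => max p.1 1) m
    ⟨fun p => hb.adm p.2, fun x => (hb.ud x).re Prod.snd, hb.pos.imp fun _ h => ⟨h.1, fun p => h.2 p.2⟩⟩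
    hK0 hK hw (fun η hη => eventually_curry_iff.2 (.of_forall fun _ => hcv η hη))
    (fun k => (hS k).re Prod.snd) (fun p => le_max_right _ _)
    (tendsto_atTop.2 fun b => eventually_curry_iff.2 ((eventually_ge_atTop b).mono fun a h =>
      .of_forall fun _ => le_max_of_le_left h))
    fun n i η hη => eventually_curry_iff.2 (.of_forall fun a =>
      hS' n (η * (max a 1 ^ i) ^ 2) (by positivity))
  obtain ⟨a, h1, h2⟩ := ((eventually_curry_iff.1 hC).and (eventually_ge_atTop (C / η))).exists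
  refine h1.mono fun r ⟨j, a1, a2, a3, a4⟩ => ⟨j, a1, a2, a3, fun α hα z x => (a4 α hα z x).trans ?_⟩
  rw [div_le_iff₀ (by positivity), mul_comm, ← div_le_iff₀ hη]
  exact le_max_of_le_left h2

end Vale.Agent.P354KM
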